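import Vale.Agent.P209.Final
import Vale.Agent.P209N.Main

namespace Vale.Agent.Results.P209.A_full

open Vale.Agent.P209

theorem result (n k : ℕ) (hn : 3 ≤ n) (hk : 1 ≤ k) (R : ℝ) (hR : 0 < R) (r : Fin k → ℝ)
    (hr : ∀ i, 0 < r i) :
    Packs n r R ↔ (∑ i, r i ^ n < R ^ n ∧ ∀ i j, i < j → r i + r j < R) := by
  have _ := hk
  constructor
  · intro h
    obtain ⟨h1, h2⟩ := necessity (by omega) r R hr hR h
    exact ⟨h1, fun i j hij => h2 i j hij.ne⟩
  · rintro ⟨h1, h2⟩
    refine sufficiency hn r R hr hR h1 fun i j hij => ?_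
    rcases lt_or_gt_of_ne hij with h | h
    · exact h2 i j h
    · rw [add_comm]; exact h2 j i h

end Vale.Agent.Results.P209.A_full
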